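import Crest.Agent.R071.Cover

set_option autoImplicit false

namespace Crest.Agent.R071

open Finset

open Classical in
theorem exists_code {X Γ R P I : Type*} [Fintype X] [Fintype Γ] [Fintype I] [Nonempty I]
    [Nonempty P] (J k D : ℕ) (hJ : 0 < J) (hk : J * J ≤ k) (hD0 : 0 < D)
    (hD : Fintype.card (Γ × Fin J × Fin k) * J ≤ D)
    (g : X → Γ) (bad : I → X → Prop) (near : ℕ → R → X → Prop)
    (nearV : I → ℕ → P → X → Prop)
    (res : I → R → P) (Q : I → Γ → ℕ → R → P → Prop)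
    (hbad : ∀ x, J * #{j | bad j x} ≤ Fintype.card I)
    (ha : ∀ j i r x, near i r x → nearV j i (res j r) x)
    (hb : ∀ j i₀ i r ρ x, ¬ bad j x → i₀ ≤ i → nearV j i (res j r) x → nearV j i₀ ρ x →
      Q j (g x) (i+1) r ρ)
    (hc : ∀ j i₀ i r ρ x, ¬ bad j x → i₀ ≤ i → Q j (g x) i r ρ → nearV j i₀ ρ x →
      near (i+1) r x) :
    ∃ code : (X → ℝ) → I × (Fin J → Fin k → P) ×
        (Γ × Fin J × Fin k → Finset.Icc (-(D:ℤ)) D),
      ∀ y y' : X → ℝ, ∑ x, |y x| ≤ 1 → ∑ x, |y' x| ≤ 1 → code y = code y' → ∀ r,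
        |∑ x, y x * ((#{i ∈ range J | near i r x} : ℝ) / J) -
          ∑ x, y' x * ((#{i ∈ range J | near i r x} : ℝ) / J)| ≤ 7 / J := by
  have hJ' : (0:ℝ) < J := by exact_mod_cast hJ
  have hD' : (0:ℝ) < D := by exact_mod_cast hD0
  have H := fun (y : X → ℝ) (hy : ∑ x, |y x| ≤ 1) =>
    exists_data J k hJ hk g bad near nearV res Q hbad ha hb hc y hy
  choose! jj ρρ ww hww hh using H
  have h0 : (0:ℤ) ∈ Finset.Icc (-(D:ℤ)) D := by
    rw [Finset.mem_Icc]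
    omega
  set fl : ℝ → Finset.Icc (-(D:ℤ)) (D:ℤ) := fun t =>
    if h : ⌊(D:ℝ) * t⌋ ∈ Finset.Icc (-(D:ℤ)) D then ⟨_, h⟩ else ⟨0, h0⟩ with hfl
  have hfl1 : ∀ t t' : ℝ, |t| ≤ 1 → |t'| ≤ 1 → fl t = fl t' → |t - t'| ≤ 1 / D := by
    intro t t' ht ht' h
    have hmem : ∀ t : ℝ, |t| ≤ 1 → ⌊(D:ℝ) * t⌋ ∈ Finset.Icc (-(D:ℤ)) D := by
      intro t ht
      rw [abs_le] at ht
      rw [Finset.mem_Icc]
      constructor
      · rw [Int.le_floor]
        push_cast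
        nlinarith [ht.1]
      · rw [← Int.cast_le (R := ℝ)]
        refine (Int.floor_le _).trans ?_
        push_cast
        nlinarith [ht.2]
    rw [hfl] at h
    simp only [dif_pos (hmem t ht), dif_pos (hmem t' ht'), Subtype.mk.injEq] at h
    have h2 := Int.abs_sub_lt_one_of_floor_eq_floor h
    rw [← mul_sub, abs_mul, abs_of_pos hD'] at h2
    rw [le_div_iff₀ hD', mul_comm]
    exact h2.le
  refine ⟨fun y => (jj y, ρρ y, fun c => fl (ww y c)), ?_⟩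
  intro y y' hy hy' hcode r
  simp only [Prod.mk.injEq] at hcode
  obtain ⟨h1, h2, h3⟩ := hcode
  have e1 := hh y hy r
  have e2 := hh y' hy' r
  rw [← h1, ← h2] at e2
  have e3 : |∑ c, ww y c * ((#{i ∈ range J | (c.2.1 : ℕ) ≤ i ∧
        Q (jj y) c.1 i r (ρρ y c.2.1 c.2.2)} : ℝ) / J) -
      ∑ c, ww y' c * ((#{i ∈ range J | (c.2.1 : ℕ) ≤ i ∧
        Q (jj y) c.1 i r (ρρ y c.2.1 c.2.2)} : ℝ) / J)| ≤ 1 / J := by
    rw [← Finset.sum_sub_distrib]
    calc |∑ c, (ww y c * ((#{i ∈ range J | (c.2.1 : ℕ) ≤ i ∧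
        Q (jj y) c.1 i r (ρρ y c.2.1 c.2.2)} : ℝ) / J) - ww y' c * ((#{i ∈ range J |
        (c.2.1 : ℕ) ≤ i ∧ Q (jj y) c.1 i r (ρρ y c.2.1 c.2.2)} : ℝ) / J))|
        ≤ ∑ c, |(ww y c * ((#{i ∈ range J | (c.2.1 : ℕ) ≤ i ∧
        Q (jj y) c.1 i r (ρρ y c.2.1 c.2.2)} : ℝ) / J) - ww y' c * ((#{i ∈ range J |
        (c.2.1 : ℕ) ≤ i ∧ Q (jj y) c.1 i r (ρρ y c.2.1 c.2.2)} : ℝ) / J))| :=
          Finset.abs_sum_le_sum_abs _ _
      _ ≤ ∑ c : Γ × Fin J × Fin k, (1:ℝ) / D := by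
          apply Finset.sum_le_sum
          intro c _
          rw [← sub_mul, abs_mul]
          have hc1 : |ww y c - ww y' c| ≤ 1 / D :=
            hfl1 _ _ (hww y hy c) (hww y' hy' c) (congrFun h3 c)
          have hc2 : |((#{i ∈ range J | (c.2.1 : ℕ) ≤ i ∧
              Q (jj y) c.1 i r (ρρ y c.2.1 c.2.2)} : ℝ) / J)| ≤ 1 := by
            rw [abs_of_nonneg (by positivity), div_le_one hJ']
            have := Finset.card_filter_le (range J) (fun i => (c.2.1 : ℕ) ≤ i ∧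
              Q (jj y) c.1 i r (ρρ y c.2.1 c.2.2))
            rw [Finset.card_range] at this
            exact_mod_cast this
          calc _ ≤ (1:ℝ) / D * 1 := mul_le_mul hc1 hc2 (abs_nonneg _) (by positivity)
            _ = _ := mul_one _
      _ = (Fintype.card (Γ × Fin J × Fin k) : ℝ) * (1 / D) := by
          rw [Finset.sum_const, nsmul_eq_mul, Finset.card_univ]
      _ ≤ 1 / J := by
          rw [mul_one_div, div_le_div_iff₀ hD' hJ', one_mul]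
          exact_mod_cast hD
  have h7 : (7:ℝ) / J = 3 / J + 1 / J + 3 / J := by ring
  rw [h7]
  rw [abs_le] at e1 e2 e3 ⊢
  constructor <;> linarith [e1.1, e1.2, e2.1, e2.2, e3.1, e3.2]

end Crest.Agent.R071
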