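import Mathlib

set_option autoImplicit false

namespace Crest.Agent.R071

open Finset

open Classical in
theorem greedy_aux {X P : Type*} [Fintype X] [Nonempty P] (m : X → ℝ) (hm : ∀ x, 0 ≤ m x)
    (B : P → X → Prop) (ε : ℝ) (j : ℕ) :
    ∃ R : Fin j → P, (∀ ρ, ∑ x with (B ρ x ∧ ∀ l, ¬ B (R l) x), m x ≤ ε) ∨
      (j * ε ≤ ∑ x with (∃ l, B (R l) x), m x) := by
  induction j with
  | zero => exact ⟨Fin.elim0, Or.inr (by simp)⟩
  | succ j ih =>
    obtain ⟨R, h⟩ := ih
    by_cases hR : ∀ ρ, ∑ x with (B ρ x ∧ ∀ l, ¬ B (R l) x), m x ≤ ε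
    · refine ⟨Fin.cons (Classical.arbitrary P) R, Or.inl fun ρ => le_trans ?_ (hR ρ)⟩
      apply Finset.sum_le_sum_of_subset_of_nonneg
      · intro x hx
        simp only [mem_filter, mem_univ, true_and] at hx ⊢
        exact ⟨hx.1, fun l => by simpa using hx.2 l.succ⟩
      · intro x _ _
        exact hm x
    · have h' := h.resolve_left hR
      push Not at hR
      obtain ⟨ρ, hρ⟩ := hR
      refine ⟨Fin.cons ρ R, Or.inr ?_⟩
      have key : ∑ x with (∃ l, B ((Fin.cons ρ R : Fin (j+1) → P) l) x), m x
          = ∑ x with (B ρ x ∧ ∀ l, ¬ B (R l) x), m x + ∑ x with (∃ l, B (R l) x), m x := by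
        rw [← Finset.sum_union]
        · apply Finset.sum_congr _ (fun _ _ => rfl)
          ext x
          simp only [mem_filter, mem_univ, true_and, mem_union, Fin.exists_fin_succ, Fin.cons_zero,
            Fin.cons_succ]
          constructor
          · rintro (h1 | h1)
            · by_cases h2 : ∃ l, B (R l) x
              · exact Or.inr h2
              · push Not at h2
                exact Or.inl ⟨h1, h2⟩
            · exact Or.inr h1
          · rintro (h1 | h1)
            · exact Or.inl h1.1
            · exact Or.inr h1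
        · rw [Finset.disjoint_left]
          intro x hx hx'
          simp only [mem_filter, mem_univ, true_and] at hx hx'
          obtain ⟨l, hl⟩ := hx'
          exact hx.2 l hl
      rw [key]
      push_cast
      linarith

open Classical in
theorem greedy {X P : Type*} [Fintype X] [Nonempty P] (m : X → ℝ) (hm : ∀ x, 0 ≤ m x)
    (hm1 : ∑ x, m x ≤ 1) (B : P → X → Prop) (k : ℕ) (hk : 0 < k) :
    ∃ R : Fin k → P, ∀ ρ, ∑ x with (B ρ x ∧ ∀ l, ¬ B (R l) x), m x ≤ 1 / k := by
  obtain ⟨R, h | h⟩ := greedy_aux m hm B (1 / k) k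
  · exact ⟨R, h⟩
  · refine ⟨R, fun ρ => ?_⟩
    have h1 : (k : ℝ) * (1 / k) = 1 := by
      field_simp
    rw [h1] at h
    have h2 : ∑ x with (B ρ x ∧ ∀ l, ¬ B (R l) x), m x + ∑ x with (∃ l, B (R l) x), m x
        ≤ ∑ x, m x := by
      rw [← Finset.sum_union]
      · apply Finset.sum_le_sum_of_subset_of_nonneg (Finset.subset_univ _)
        intro x _ _
        exact hm x
      · rw [Finset.disjoint_left]
        intro x hx hx'
        simp only [mem_filter, mem_univ, true_and] at hx hx'
        obtain ⟨l, hl⟩ := hx'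
        exact hx.2 l hl
    have h3 : (0:ℝ) ≤ 1 / k := by positivity
    linarith

theorem card_shift {J : ℕ} {S T : Finset ℕ} (hS : S ⊆ range J)
    (h : ∀ i ∈ S, i + 1 < J → i + 1 ∈ T) : #S ≤ #T + 1 := by
  have h1 : #(S.erase (J - 1)) ≤ #T := by
    apply Finset.card_le_card_of_injOn (fun i => i + 1)
    · intro i hi
      have hi' := Finset.mem_erase.1 (Finset.mem_coe.1 hi)
      have hi2 := Finset.mem_range.1 (hS hi'.2)
      apply Finset.mem_coe.2
      apply h i hi'.2
      omega
    · intro a _ b _ hab
      simpa using hab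
  have h2 := Finset.pred_card_le_card_erase (s := S) (a := J - 1)
  omega

theorem card_shift_abs {J : ℕ} {S T : Finset ℕ} (hS : S ⊆ range J) (hT : T ⊆ range J)
    (h : ∀ i ∈ S, i + 1 < J → i + 1 ∈ T) (h' : ∀ i ∈ T, i + 1 < J → i + 1 ∈ S) :
    |(#S : ℝ) / J - (#T : ℝ) / J| ≤ 1 / J := by
  have h1 : (#S : ℝ) ≤ #T + 1 := by exact_mod_cast card_shift hS h
  have h2 : (#T : ℝ) ≤ #S + 1 := by exact_mod_cast card_shift hT h'
  rw [← sub_div, abs_div, abs_of_nonneg (Nat.cast_nonneg J : (0:ℝ) ≤ J)]
  apply div_le_div_of_nonneg_right _ (Nat.cast_nonneg J)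
  rw [abs_le]
  constructor <;> linarith

open Classical in
theorem exists_data {X Γ R P I : Type*} [Fintype X] [Fintype Γ] [Fintype I] [Nonempty I]
    [Nonempty P] (J k : ℕ) (hJ : 0 < J) (hk : J * J ≤ k)
    (g : X → Γ) (bad : I → X → Prop) (near : ℕ → R → X → Prop)
    (nearV : I → ℕ → P → X → Prop)
    (res : I → R → P) (Q : I → Γ → ℕ → R → P → Prop)
    (hbad : ∀ x, J * #{j | bad j x} ≤ Fintype.card I)
    (ha : ∀ j i r x, near i r x → nearV j i (res j r) x)
    (hb : ∀ j i₀ i r ρ x, ¬ bad j x → i₀ ≤ i → nearV j i (res j r) x → nearV j i₀ ρ x →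
      Q j (g x) (i+1) r ρ)
    (hc : ∀ j i₀ i r ρ x, ¬ bad j x → i₀ ≤ i → Q j (g x) i r ρ → nearV j i₀ ρ x →
      near (i+1) r x)
    (y : X → ℝ) (hy : ∑ x, |y x| ≤ 1) :
    ∃ (j : I) (ρ : Fin J → Fin k → P) (w : Γ × Fin J × Fin k → ℝ), (∀ c, |w c| ≤ 1) ∧
      ∀ r, |∑ x, y x * ((#{i ∈ range J | near i r x} : ℝ) / J) -
        ∑ c, w c * ((#{i ∈ range J | (c.2.1 : ℕ) ≤ i ∧ Q j c.1 i r (ρ c.2.1 c.2.2)} : ℝ) / J)|
          ≤ 3 / J := by
  have hJ' : (0:ℝ) < J := by exact_mod_cast hJ
  have hk0 : 0 < k := lt_of_lt_of_le (Nat.mul_pos hJ hJ) hk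
  have hk' : (0:ℝ) < k := by exact_mod_cast hk0
  -- choice of j
  obtain ⟨j, hj⟩ : ∃ j : I, ∑ x with bad j x, |y x| ≤ 1 / J := by
    by_contra hcon
    push Not at hcon
    have hI : 0 < Fintype.card I := Fintype.card_pos
    have h1 : ∑ j : I, ∑ x with bad j x, |y x| ≤ (Fintype.card I : ℝ) / J := by
      calc ∑ j : I, ∑ x with bad j x, |y x| = ∑ j : I, ∑ x, if bad j x then |y x| else 0 := by
            apply Finset.sum_congr rfl
            intro j _
            rw [Finset.sum_filter]
        _ = ∑ x, ∑ j : I, if bad j x then |y x| else 0 := Finset.sum_comm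
        _ = ∑ x, (#{j | bad j x} : ℝ) * |y x| := by
            apply Finset.sum_congr rfl
            intro x _
            rw [← Finset.sum_filter, Finset.sum_const, nsmul_eq_mul]
        _ ≤ ∑ x, ((Fintype.card I : ℝ) / J) * |y x| := by
            apply Finset.sum_le_sum
            intro x _
            apply mul_le_mul_of_nonneg_right _ (abs_nonneg _)
            rw [le_div_iff₀ hJ', mul_comm]
            exact_mod_cast hbad x
        _ = ((Fintype.card I : ℝ) / J) * ∑ x, |y x| := by rw [Finset.mul_sum]
        _ ≤ ((Fintype.card I : ℝ) / J) * 1 := by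
            apply mul_le_mul_of_nonneg_left hy
            positivity
        _ = _ := mul_one _
    have h2 : (Fintype.card I : ℝ) / J < ∑ j : I, ∑ x with bad j x, |y x| := by
      calc (Fintype.card I : ℝ) / J = ∑ j : I, (1:ℝ) / J := by
            rw [Finset.sum_const, nsmul_eq_mul, Finset.card_univ]; ring
        _ < _ := Finset.sum_lt_sum_of_nonempty Finset.univ_nonempty (fun j _ => hcon j)
    linarith
  -- choice of representatives
  have hgreedy : ∀ i : Fin J, ∃ R : Fin k → P, ∀ ρ,
      ∑ x with (nearV j i ρ x ∧ ∀ l, ¬ nearV j i (R l) x), |y x| ≤ 1 / k := fun i =>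
    greedy (fun x => |y x|) (fun x => abs_nonneg _) hy (fun ρ x => nearV j i ρ x) k hk0
  choose ρ hρ using hgreedy
  -- cell function
  have hcell : ∀ x, ∃ c : Option (Fin J × Fin k),
      (c = none → bad j x ∨ ∀ (i : Fin J) (l : Fin k), ¬ nearV j i (ρ i l) x) ∧
      (∀ (i : Fin J) (l : Fin k), c = some (i, l) → ¬ bad j x ∧ nearV j i (ρ i l) x ∧
        ∀ (i' : Fin J) (l' : Fin k), nearV j i' (ρ i' l') x → i ≤ i') := by
    intro x
    by_cases hx : bad j x ∨ ∀ (i : Fin J) (l : Fin k), ¬ nearV j i (ρ i l) x
    · exact ⟨none, fun _ => hx, fun i l h => by simp at h⟩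
    · push Not at hx
      obtain ⟨hx1, hx2⟩ := hx
      obtain ⟨i, hi, hmin⟩ := WellFounded.has_min (wellFounded_lt (α := Fin J))
        {i : Fin J | ∃ l, nearV j i (ρ i l) x} hx2
      obtain ⟨l, hl⟩ := hi
      refine ⟨some (i, l), fun h => by simp at h, ?_⟩
      intro i1 l1 h
      simp only [Option.some.injEq, Prod.mk.injEq] at h
      obtain ⟨rfl, rfl⟩ := h
      refine ⟨hx1, hl, fun i' l' h' => ?_⟩
      exact not_lt.1 (hmin i' ⟨l', h'⟩)
  choose cell hcell1 hcell2 using hcell
  set w : Γ × Fin J × Fin k → ℝ := fun c => ∑ x with (g x = c.1 ∧ cell x = some c.2), y x with hw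
  refine ⟨j, ρ, w, ?_, ?_⟩
  · intro c
    calc |w c| ≤ ∑ x with (g x = c.1 ∧ cell x = some c.2), |y x| := Finset.abs_sum_le_sum_abs _ _
      _ ≤ ∑ x, |y x| := by
          apply Finset.sum_le_sum_of_subset_of_nonneg (Finset.subset_univ _)
          intro x _ _
          exact abs_nonneg _
      _ ≤ 1 := hy
  · intro r
    -- the prediction
    set F : X → ℝ := fun x => (#{i ∈ range J | near i r x} : ℝ) / J with hF
    set H : Γ → Fin J × Fin k → ℝ := fun γ c =>
      (#{i ∈ range J | (c.1 : ℕ) ≤ i ∧ Q j γ i r (ρ c.1 c.2)} : ℝ) / J with hH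
    set pred : X → ℝ := fun x => (cell x).elim 0 (H (g x)) with hpred
    have hFle : ∀ x, 0 ≤ F x ∧ F x ≤ 1 := by
      intro x
      refine ⟨by positivity, ?_⟩
      rw [hF]
      simp only
      rw [div_le_one hJ']
      have := Finset.card_filter_le (range J) (fun i => near i r x)
      rw [Finset.card_range] at this
      exact_mod_cast this
    have hHle : ∀ γ c, 0 ≤ H γ c ∧ H γ c ≤ 1 := by
      intro γ c
      refine ⟨by positivity, ?_⟩
      rw [hH]
      simp only
      rw [div_le_one hJ']
      have := Finset.card_filter_le (range J) (fun i => (c.1 : ℕ) ≤ i ∧ Q j γ i r (ρ c.1 c.2))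
      rw [Finset.card_range] at this
      exact_mod_cast this
    have hpredle : ∀ x, 0 ≤ pred x ∧ pred x ≤ 1 := by
      intro x
      rw [hpred]
      simp only
      cases hcx : cell x with
      | none => simp
      | some c => simpa using hHle (g x) c
    have hsum : ∑ c, w c * ((#{i ∈ range J | (c.2.1 : ℕ) ≤ i ∧ Q j c.1 i r (ρ c.2.1 c.2.2)} : ℝ) / J)
        = ∑ x, y x * pred x := by
      have h1 : ∀ c : Γ × Fin J × Fin k, w c * ((#{i ∈ range J | (c.2.1 : ℕ) ≤ i ∧
          Q j c.1 i r (ρ c.2.1 c.2.2)} : ℝ) / J) =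
          ∑ x, if (g x = c.1 ∧ cell x = some c.2) then y x * pred x else 0 := by
        intro c
        rw [hw]
        simp only
        rw [Finset.sum_mul, ← Finset.sum_filter]
        apply Finset.sum_congr rfl
        intro x hx
        simp only [mem_filter, mem_univ, true_and] at hx
        rw [hpred]
        simp only [hx.2, Option.elim_some, hH, hx.1]
      rw [Finset.sum_congr rfl (fun c _ => h1 c), Finset.sum_comm]
      apply Finset.sum_congr rfl
      intro x _
      cases hcx : cell x with
      | none =>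
        have : pred x = 0 := by
          rw [hpred]; simp only [hcx, Option.elim_none]
        rw [this]
        simp
      | some c =>
        rw [Finset.sum_eq_single (g x, c)]
        · simp
        · intro c' _ hne
          rw [if_neg]
          rintro ⟨h1, h2⟩
          apply hne
          simp only [Option.some.injEq] at h2
          rw [Prod.ext_iff]
          exact ⟨h1.symm, h2.symm⟩
        · intro h
          exact absurd (Finset.mem_univ _) h
    rw [hsum, ← Finset.sum_sub_distrib]
    have hpt : ∀ x, |F x - pred x| ≤ 1 / J + (if bad j x then 1 else 0) +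
        ∑ i : Fin J, (if (nearV j i (res j r) x ∧ ∀ l, ¬ nearV j i (ρ i l) x) then (1:ℝ) else 0) := by
      intro x
      have hle1 : |F x - pred x| ≤ 1 := by
        rw [abs_le]
        have := hFle x
        have := hpredle x
        constructor <;> linarith
      have h1J : (0:ℝ) ≤ 1 / J := by positivity
      have hs0 : ∀ i : Fin J, (0:ℝ) ≤ (if (nearV j i (res j r) x ∧ ∀ l, ¬ nearV j i (ρ i l) x)
          then (1:ℝ) else 0) := by
        intro i
        split_ifs <;> norm_num
      have hs1 : (0:ℝ) ≤ ∑ i : Fin J, (if (nearV j i (res j r) x ∧ ∀ l, ¬ nearV j i (ρ i l) x)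
          then (1:ℝ) else 0) := Finset.sum_nonneg (fun i _ => hs0 i)
      by_cases hbx : bad j x
      · rw [if_pos hbx]
        linarith
      · rw [if_neg hbx]
        by_cases hex : ∃ i : Fin J, nearV j i (res j r) x ∧ ∀ l, ¬ nearV j i (ρ i l) x
        · obtain ⟨i, hi⟩ := hex
          have : (1:ℝ) ≤ ∑ i : Fin J, (if (nearV j i (res j r) x ∧ ∀ l, ¬ nearV j i (ρ i l) x)
              then (1:ℝ) else 0) := by
            have h2 := Finset.single_le_sum (fun i _ => hs0 i) (Finset.mem_univ i)
            rw [if_pos hi] at h2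
            exact h2
          linarith
        · push Not at hex
          have hmain : |F x - pred x| ≤ 1 / J := by
            rw [hF, hpred]
            simp only
            cases hcx : cell x with
            | none =>
              have h0 := (hcell1 x hcx).resolve_left hbx
              have h3 : {i ∈ range J | near i r x} = (∅ : Finset ℕ) := by
                rw [Finset.filter_eq_empty_iff]
                intro i hi hni
                have hi' := Finset.mem_range.1 hi
                obtain ⟨l, hl⟩ := hex ⟨i, hi'⟩ (ha j i r x hni)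
                exact h0 _ _ hl
              rw [h3]
              simp
            | some c =>
              obtain ⟨i₀, l⟩ := c
              obtain ⟨-, hnV, hmin⟩ := hcell2 x i₀ l hcx
              simp only [Option.elim_some, hH]
              apply card_shift_abs (Finset.filter_subset _ _) (Finset.filter_subset _ _)
              · intro i hi hi1
                simp only [mem_filter, mem_range] at hi ⊢
                have hV := ha j i r x hi.2
                obtain ⟨l', hl'⟩ := hex ⟨i, hi.1⟩ hV
                have hi0 := hmin _ _ hl'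
                have hi0' : (i₀ : ℕ) ≤ i := hi0
                exact ⟨hi1, by omega, hb j i₀ i r _ x hbx hi0' hV hnV⟩
              · intro i hi hi1
                simp only [mem_filter, mem_range] at hi ⊢
                exact ⟨hi1, hc j i₀ i r _ x hbx hi.2.1 hi.2.2 hnV⟩
          linarith
    calc |∑ x, (y x * F x - y x * pred x)| ≤ ∑ x, |y x * F x - y x * pred x| :=
          Finset.abs_sum_le_sum_abs _ _
      _ = ∑ x, |y x| * |F x - pred x| := by
          apply Finset.sum_congr rfl
          intro x _
          rw [← mul_sub, abs_mul]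
      _ ≤ ∑ x, |y x| * (1 / J + (if bad j x then 1 else 0) +
        ∑ i : Fin J, (if (nearV j i (res j r) x ∧ ∀ l, ¬ nearV j i (ρ i l) x) then (1:ℝ) else 0)) := by
          apply Finset.sum_le_sum
          intro x _
          exact mul_le_mul_of_nonneg_left (hpt x) (abs_nonneg _)
      _ = (∑ x, |y x|) * (1 / J) + ∑ x with bad j x, |y x| +
          ∑ i : Fin J, ∑ x with (nearV j i (res j r) x ∧ ∀ l, ¬ nearV j i (ρ i l) x), |y x| := by
          simp only [mul_add, Finset.sum_add_distrib, Finset.sum_mul, Finset.mul_sum]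
          congr 1
          · congr 1
            rw [Finset.sum_filter]
            apply Finset.sum_congr rfl
            intro x _
            split_ifs <;> simp
          · rw [Finset.sum_comm]
            apply Finset.sum_congr rfl
            intro i _
            rw [Finset.sum_filter]
            apply Finset.sum_congr rfl
            intro x _
            split_ifs <;> simp
      _ ≤ 1 * (1 / J) + 1 / J + ∑ i : Fin J, (1:ℝ) / k := by
          apply add_le_add
          · apply add_le_add _ hj
            apply mul_le_mul_of_nonneg_right hy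
            positivity
          · apply Finset.sum_le_sum
            intro i _
            exact hρ i _
      _ ≤ 3 / J := by
          rw [Finset.sum_const, nsmul_eq_mul, Finset.card_univ, Fintype.card_fin]
          have : (J:ℝ) * (1 / k) ≤ 1 / J := by
            rw [mul_one_div, div_le_div_iff₀ hk' hJ']
            rw [one_mul]
            exact_mod_cast hk
          have h3 : (3:ℝ) / J = 1 * (1 / J) + 1 / J + 1 / J := by ring
          rw [h3]
          linarith

end Crest.Agent.R071
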