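import Mathlib

set_option autoImplicit false

namespace Crest.Agent.R071

open Finset

theorem cyl_step {L p : ℕ} [NeZero p] (B J' : Finset (Fin L)) (hd : Disjoint B J')
    (D : Finset (Fin L → Fin p))
    (hD : ∀ ω ω' : Fin L → Fin p, (∀ j ∈ B, ω j = ω' j) → ω ∈ D → ω' ∈ D) :
    #D ≤ #{ω ∈ D | ∀ j ∈ J', ω j = 0} * p ^ #J' := by
  classical
  have hcard : #({ω ∈ D | ∀ j ∈ J', ω j = 0} ×ˢ (Finset.univ : Finset (J' → Fin p)))
      = #{ω ∈ D | ∀ j ∈ J', ω j = 0} * p ^ #J' := by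
    rw [Finset.card_product, Finset.card_univ, Fintype.card_fun, Fintype.card_fin,
      Fintype.card_coe]
  rw [← hcard]
  apply Finset.card_le_card_of_injOn
    (fun ω => ((fun j => if j ∈ J' then (0 : Fin p) else ω j), fun j : J' => ω j))
  · intro ω hω
    rw [Finset.mem_coe] at hω ⊢
    rw [Finset.mem_product]
    refine ⟨?_, Finset.mem_univ _⟩
    simp only [Finset.mem_filter]
    refine ⟨hD ω _ ?_ hω, ?_⟩
    · intro j hj
      have : j ∉ J' := Finset.disjoint_left.1 hd hj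
      rw [if_neg this]
    · intro j hj
      rw [if_pos hj]
  · intro ω _ ω' _ h
    simp only [Prod.mk.injEq] at h
    obtain ⟨h1, h2⟩ := h
    funext j
    by_cases hj : j ∈ J'
    · exact congrFun h2 ⟨j, hj⟩
    · have := congrFun h1 j
      simpa [hj] using this

theorem cyl_iter {L p A : ℕ} [NeZero p] (E : Finset (Fin L → Fin p)) (ν : ℕ) :
    ∃ B : Finset (Fin L), #B ≤ A * ν ∧
      ((∀ J' : Finset (Fin L), Disjoint B J' → #J' ≤ A → ∃ ω, ω ∉ E ∧ ∀ j ∈ J', ω j = 0) ∨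
      ∃ D : Finset (Fin L → Fin p),
        (∀ ω ω' : Fin L → Fin p, (∀ j ∈ B, ω j = ω' j) → ω ∈ D → ω' ∈ D) ∧
        (∀ ω, ω ∉ E → ω ∈ D) ∧ (#D : ℝ) ≤ (1 - 1 / (p:ℝ) ^ A) ^ ν * (p:ℝ) ^ L) := by
  classical
  have hp1 : (1:ℝ) ≤ p := by exact_mod_cast NeZero.one_le
  have hp0 : (0:ℝ) < p := by linarith
  induction ν with
  | zero =>
    refine ⟨∅, by simp, Or.inr ⟨Finset.univ, fun _ _ _ _ => Finset.mem_univ _,
      fun _ _ => Finset.mem_univ _, ?_⟩⟩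
    rw [Finset.card_univ, Fintype.card_fun, Fintype.card_fin, Fintype.card_fin]
    simp
  | succ ν ih =>
    obtain ⟨B, hB, h⟩ := ih
    by_cases hgood : ∀ J' : Finset (Fin L), Disjoint B J' → #J' ≤ A →
        ∃ ω, ω ∉ E ∧ ∀ j ∈ J', ω j = 0
    · exact ⟨B, hB.trans (Nat.mul_le_mul_left _ (Nat.le_succ _)), Or.inl hgood⟩
    · obtain ⟨D, hD1, hD2, hD3⟩ := h.resolve_left hgood
      push Not at hgood
      obtain ⟨J', hJ1, hJ2, hJ3⟩ := hgood
      refine ⟨B ∪ J', ?_, Or.inr ⟨{ω ∈ D | ¬ ∀ j ∈ J', ω j = 0}, ?_, ?_, ?_⟩⟩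
      · calc #(B ∪ J') ≤ #B + #J' := Finset.card_union_le _ _
          _ ≤ A * ν + A := add_le_add hB hJ2
          _ = A * (ν + 1) := by ring
      · intro ω ω' hω hmem
        simp only [Finset.mem_filter] at hmem ⊢
        refine ⟨hD1 ω ω' (fun j hj => hω j (Finset.mem_union_left _ hj)) hmem.1, ?_⟩
        intro hcon
        apply hmem.2
        intro j hj
        rw [hω j (Finset.mem_union_right _ hj)]
        exact hcon j hj
      · intro ω hω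
        simp only [Finset.mem_filter]
        refine ⟨hD2 ω hω, ?_⟩
        intro hcon
        obtain ⟨j, hj, hj2⟩ := hJ3 ω hω
        exact hj2 (hcon j hj)
      · have h1 := cyl_step B J' hJ1 D hD1
        have h2 := Finset.card_filter_add_card_filter_not (s := D)
          (fun ω : Fin L → Fin p => ∀ j ∈ J', ω j = 0)
        have h1' : (#D : ℝ) ≤ #{ω ∈ D | ∀ j ∈ J', ω j = 0} * (p:ℝ) ^ #J' := by
          exact_mod_cast h1
        have h2' : (#{ω ∈ D | ∀ j ∈ J', ω j = 0} : ℝ) + #{ω ∈ D | ¬ ∀ j ∈ J', ω j = 0}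
            = #D := by exact_mod_cast h2
        have hpow : (p:ℝ) ^ #J' ≤ (p:ℝ) ^ A := pow_le_pow_right₀ hp1 hJ2
        have hpA : (0:ℝ) < (p:ℝ) ^ A := by positivity
        have h3 : (#D : ℝ) ≤ #{ω ∈ D | ∀ j ∈ J', ω j = 0} * (p:ℝ) ^ A :=
          h1'.trans (mul_le_mul_of_nonneg_left hpow (Nat.cast_nonneg _))
        have h4 : (#D : ℝ) / (p:ℝ) ^ A ≤ #{ω ∈ D | ∀ j ∈ J', ω j = 0} := by
          rw [div_le_iff₀ hpA]
          exact h3
        have h5 : (#{ω ∈ D | ¬ ∀ j ∈ J', ω j = 0} : ℝ) ≤ (1 - 1 / (p:ℝ) ^ A) * #D := by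
          have : (1 - 1 / (p:ℝ) ^ A) * (#D:ℝ) = #D - (#D : ℝ) / (p:ℝ) ^ A := by ring
          rw [this]
          linarith
        have h6 : 0 ≤ 1 - 1 / (p:ℝ) ^ A := by
          rw [sub_nonneg, div_le_one hpA]
          exact one_le_pow₀ hp1
        calc (#{ω ∈ D | ¬ ∀ j ∈ J', ω j = 0} : ℝ) ≤ (1 - 1 / (p:ℝ) ^ A) * #D := h5
          _ ≤ (1 - 1 / (p:ℝ) ^ A) * ((1 - 1 / (p:ℝ) ^ A) ^ ν * (p:ℝ) ^ L) :=
              mul_le_mul_of_nonneg_left hD3 h6
          _ = (1 - 1 / (p:ℝ) ^ A) ^ (ν + 1) * (p:ℝ) ^ L := by ring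

/-- the separation lemma for cylinders -/
theorem exists_good {L p A ν J : ℕ} [NeZero p] (hν : (1 - 1 / (p:ℝ) ^ A) ^ ν < 1 / 2)
    (hL : J * (A * ν) ≤ L) (E : Finset (Fin L → Fin p)) (hE : 2 * #E ≤ p ^ L) :
    ∃ G : Finset (Fin L), J * #Gᶜ ≤ L ∧
      ∀ J' : Finset (Fin L), J' ⊆ G → #J' ≤ A → ∃ ω, ω ∉ E ∧ ∀ j ∈ J', ω j = 0 := by
  classical
  obtain ⟨B, hB, h⟩ := cyl_iter (A := A) E ν
  refine ⟨Bᶜ, ?_, ?_⟩
  · rw [compl_compl]
    exact (Nat.mul_le_mul_left _ hB).trans hL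
  · rcases h with h | ⟨D, -, hD2, hD3⟩
    · intro J' hJ' hcard
      apply h J' _ hcard
      rw [Finset.disjoint_left]
      intro j hj hj'
      exact Finset.mem_compl.1 (hJ' hj') hj
    · exfalso
      have h1 : #Eᶜ ≤ #D := Finset.card_le_card (fun ω hω => hD2 ω (Finset.mem_compl.1 hω))
      have h2 : #E + #Eᶜ = p ^ L := by
        rw [Finset.card_add_card_compl, Fintype.card_fun, Fintype.card_fin, Fintype.card_fin]
      have h3 : p ^ L ≤ 2 * #D := by omega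
      have h3' : (p:ℝ) ^ L ≤ 2 * #D := by exact_mod_cast h3
      have hp0 : (0:ℝ) < (p:ℝ) ^ L := by
        have : (0:ℝ) < p := by exact_mod_cast (NeZero.pos p)
        positivity
      nlinarith

end Crest.Agent.R071
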