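import Mathlib
import Crest.Prelude.Def_Polar

set_option autoImplicit false
open Pointwise Crest.AnalysisR
open Crest Crest.AnalysisR

namespace Crest.Agent.R071

open Finset

theorem wrapper (a b : ℝ) (ha : 1 ≤ a) (hb : 1 ≤ b) {X R C : Type} [Fintype X] [Nonempty X]
    [Fintype R] [Nonempty R] [Fintype C]
    (F : R → X → ℝ)
    (hsep : ∀ r r', r ≠ r' → ∃ x, F r x = 1 ∧ F r' x = 0)
    (code : (X → ℝ) → C)
    (hcode : ∀ y y' : X → ℝ, ∑ x, |y x| ≤ 1 → ∑ x, |y' x| ≤ 1 → code y = code y' → ∀ r,
      |∑ x, y x * F r x - ∑ x, y' x * F r x| ≤ 1 / (6 * a))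
    (hlog : b * Real.log (Fintype.card C) < Real.log (Fintype.card R)) :
    ∃ n : ℕ, 0 < n ∧ ∃ K : Set (EuclideanSpace ℝ (Fin n)),
      Convex ℝ K ∧ IsCompact K ∧ (interior K).Nonempty ∧ (∀ x ∈ K, -x ∈ K) ∧
      ∃ t₁ : Finset (EuclideanSpace ℝ (Fin n)),
        polarSet {x : EuclideanSpace ℝ (Fin n) | ∀ i, |x i| ≤ 1} ⊆
          ⋃ y ∈ t₁, (y +ᵥ a⁻¹ • polarSet K) ∧
        ∀ t₂ : Finset (EuclideanSpace ℝ (Fin n)),
          K ⊆ ⋃ x ∈ t₂, (x +ᵥ {z : EuclideanSpace ℝ (Fin n) | ∀ i, |z i| ≤ 1}) →
          b * Real.log t₁.card < Real.log t₂.card := by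
  classical
  have ha0 : 0 < a := by linarith
  have hb0 : 0 < b := by linarith
  let n := Fintype.card X
  let e : Fin n ≃ X := (Fintype.equivFin X).symm
  let E := EuclideanSpace ℝ (Fin n)
  let v : R → EuclideanSpace ℝ (Fin n) := fun r => WithLp.toLp 2 (fun i => 3 * F r (e i))
  have hvi : ∀ r i, v r i = 3 * F r (e i) := fun r i => rfl
  let S : Set (EuclideanSpace ℝ (Fin n)) := Set.range v ∪ -Set.range v
  have hSfin : S.Finite := (Set.finite_range v).union (Set.finite_range v).neg
  have hSneg : -S = S := by
    simp only [S, Set.union_neg, neg_neg]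
    rw [Set.union_comm]
  let K : Set (EuclideanSpace ℝ (Fin n)) := convexHull ℝ S + Metric.closedBall 0 (1 / (4 * a))
  have hvS : ∀ r, v r ∈ convexHull ℝ S := fun r =>
    subset_convexHull ℝ S (Or.inl ⟨r, rfl⟩)
  refine ⟨n, Fintype.card_pos, K, ?_, ?_, ?_, ?_, ?_⟩
  · exact (convex_convexHull ℝ S).add (convex_closedBall _ _)
  · exact (Set.Finite.isCompact_convexHull ℝ hSfin).add (isCompact_closedBall _ _)
  · obtain ⟨r⟩ := ‹Nonempty R›
    refine ⟨v r, mem_interior.2 ⟨Metric.ball (v r) (1 / (4 * a)), ?_, Metric.isOpen_ball,
      Metric.mem_ball_self (by positivity)⟩⟩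
    intro z hz
    refine Set.mem_add.2 ⟨v r, hvS r, z - v r, ?_, by abel⟩
    rw [mem_closedBall_zero_iff]
    rw [Metric.mem_ball, dist_eq_norm] at hz
    exact hz.le
  · rintro x hx
    obtain ⟨h, hh, u, hu, rfl⟩ := Set.mem_add.1 hx
    refine Set.mem_add.2 ⟨-h, ?_, -u, ?_, by abel⟩
    · rw [← hSneg, convexHull_neg, Set.mem_neg, neg_neg]
      exact hh
    · simpa using hu
  · -- polar of the cube
    have hpol : ∀ y ∈ polarSet {x : EuclideanSpace ℝ (Fin n) | ∀ i, |x i| ≤ 1},
        ∑ i, |y i| ≤ 1 := by
      intro y hy
      have h := hy (WithLp.toLp 2 (fun i => SignType.sign (y i) : Fin n → ℝ)) ?_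
      · rw [PiLp.inner_apply] at h
        refine le_trans (le_of_eq ?_) h
        apply Finset.sum_congr rfl
        intro i _
        simp only [RCLike.inner_apply, conj_trivial]
        rw [self_mul_sign]
      · intro i
        change |((SignType.sign (y i) : SignType) : ℝ)| ≤ 1
        rcases lt_trichotomy (y i) 0 with h | h | h
        · rw [sign_neg h]; simp
        · rw [h]; simp
        · rw [sign_pos h]; simp
    have hpol2 : ∀ y ∈ polarSet {x : EuclideanSpace ℝ (Fin n) | ∀ i, |x i| ≤ 1}, ‖y‖ ≤ 1 := by
      intro y hy
      have h1 := hpol y hy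
      have h2 : ∀ i, |y i| ≤ 1 := fun i =>
        (Finset.single_le_sum (fun i _ => abs_nonneg (y i)) (Finset.mem_univ i)).trans h1
      have h3 := hy y h2
      rw [real_inner_self_eq_norm_sq] at h3
      have h4 := norm_nonneg y
      nlinarith
    let cd : EuclideanSpace ℝ (Fin n) → C := fun y => code (fun x => y (e.symm x))
    let rep : C → EuclideanSpace ℝ (Fin n) := fun c =>
      if h : ∃ y ∈ polarSet {x : EuclideanSpace ℝ (Fin n) | ∀ i, |x i| ≤ 1}, cd y = c then
        h.choose else 0
    refine ⟨Finset.univ.image rep, ?_, ?_⟩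
    · intro y hy
      simp only [Finset.mem_image, Finset.mem_univ, true_and, Set.iUnion_exists,
        Set.iUnion_iUnion_eq', Set.mem_iUnion]
      refine ⟨cd y, ?_⟩
      have hex : ∃ z ∈ polarSet {x : EuclideanSpace ℝ (Fin n) | ∀ i, |x i| ≤ 1}, cd z = cd y :=
        ⟨y, hy, rfl⟩
      have hrep : rep (cd y) = hex.choose := by
        simp only [rep]
        rw [dif_pos hex]
      obtain ⟨hz1, hz2⟩ := hex.choose_spec
      rw [← hrep] at hz1 hz2
      set z := rep (cd y) with hz
      refine Set.mem_vadd_set.2 ⟨y - z, ?_, by simp [vadd_eq_add]⟩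
      refine Set.mem_smul_set.2 ⟨a • (y - z), ?_, ?_⟩
      · -- in the polar of K
        intro k hk
        obtain ⟨h, hh, u, hu, rfl⟩ := Set.mem_add.1 hk
        rw [inner_add_left]
        have p1 : inner ℝ h (a • (y - z)) ≤ 1 / 2 := by
          have hsub : convexHull ℝ S ⊆ {h | inner ℝ h (a • (y - z)) ≤ 1 / 2} := by
            apply convexHull_min
            · have key : ∀ r, |inner ℝ (v r) (a • (y - z))| ≤ 1 / 2 := by
                intro r
                have hcode' := hcode (fun x => y (e.symm x)) (fun x => z (e.symm x)) ?_ ?_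
                  hz2.symm r
                · have hin : inner ℝ (v r) (a • (y - z)) = 3 * a *
                      (∑ x, y (e.symm x) * F r x - ∑ x, z (e.symm x) * F r x) := by
                    rw [PiLp.inner_apply, ← Finset.sum_sub_distrib, Finset.mul_sum]
                    rw [← Equiv.sum_comp e]
                    apply Finset.sum_congr rfl
                    intro i _
                    simp only [RCLike.inner_apply, conj_trivial, Equiv.symm_apply_apply, hvi,
                      PiLp.smul_apply, PiLp.sub_apply, smul_eq_mul]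
                    ring
                  rw [hin, abs_mul, abs_of_pos (by positivity : (0:ℝ) < 3 * a)]
                  calc 3 * a * |∑ x, y (e.symm x) * F r x - ∑ x, z (e.symm x) * F r x|
                      ≤ 3 * a * (1 / (6 * a)) := by
                        apply mul_le_mul_of_nonneg_left hcode'
                        positivity
                    _ = 1 / 2 := by field_simp; norm_num
                · rw [Equiv.sum_comp e.symm (fun i => |y i|)]
                  exact hpol y hy
                · rw [Equiv.sum_comp e.symm (fun i => |z i|)]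
                  exact hpol z hz1
              rintro h (⟨r, rfl⟩ | hr)
              · exact (le_abs_self _).trans (key r)
              · obtain ⟨r, hr⟩ := hr
                have : h = - v r := by rw [hr, neg_neg]
                rw [this]
                change inner ℝ (-v r) (a • (y - z)) ≤ 1 / 2
                rw [inner_neg_left]
                exact (neg_le_abs _).trans (key r)
            · intro p hp q hq s t hs ht hst
              simp only [Set.mem_ofPred_eq] at hp hq ⊢
              rw [inner_add_left, real_inner_smul_left, real_inner_smul_left]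
              nlinarith
          exact hsub hh
        have p2 : inner ℝ u (a • (y - z)) ≤ 1 / 2 := by
          rw [mem_closedBall_zero_iff] at hu
          have h1 := real_inner_le_norm u (a • (y - z))
          rw [norm_smul, Real.norm_of_nonneg ha0.le] at h1
          have h2 : ‖y - z‖ ≤ 2 := by
            have := norm_sub_le y z
            have := hpol2 y hy
            have := hpol2 z hz1
            linarith
          calc inner ℝ u (a • (y - z)) ≤ ‖u‖ * (a * ‖y - z‖) := h1
            _ ≤ (1 / (4 * a)) * (a * 2) := by
                apply mul_le_mul hu _ (by positivity) (by positivity)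
                apply mul_le_mul_of_nonneg_left h2 ha0.le
            _ = 1 / 2 := by field_simp; norm_num
        linarith
      · rw [smul_smul, inv_mul_cancel₀ ha0.ne', one_smul]
    · intro t₂ ht₂
      have hmem : ∀ r, ∃ x ∈ t₂, ∀ i, |v r i - x i| ≤ 1 := by
        intro r
        have hvK : v r ∈ K := Set.mem_add.2 ⟨v r, hvS r, 0, by
          rw [mem_closedBall_zero_iff, norm_zero]; positivity, add_zero _⟩
        have h := ht₂ hvK
        simp only [Set.mem_iUnion] at h
        obtain ⟨x, hx, hx2⟩ := h
        obtain ⟨w, hw, hw2⟩ := Set.mem_vadd_set.1 hx2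
        refine ⟨x, hx, fun i => ?_⟩
        rw [← hw2, vadd_eq_add]
        have : (x + w) i - x i = w i := by simp
        rw [this]
        exact hw i
      choose p hp1 hp2 using hmem
      have hinj : Function.Injective p := by
        intro r r' hrr
        by_contra hne
        obtain ⟨x, hx1, hx2⟩ := hsep r r' hne
        have h1 := hp2 r (e.symm x)
        have h2 := hp2 r' (e.symm x)
        rw [hvi, Equiv.apply_symm_apply, hx1, hrr] at h1
        rw [hvi, Equiv.apply_symm_apply, hx2] at h2
        rw [abs_le] at h1 h2
        linarith [h1.1, h1.2, h2.1, h2.2]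
      have hcard : Fintype.card R ≤ t₂.card := by
        rw [← Finset.card_univ]
        exact Finset.card_le_card_of_injOn p (fun r _ => hp1 r) (hinj.injOn)
      have hR : (0:ℝ) < Fintype.card R := by exact_mod_cast Fintype.card_pos
      have hC : (0:ℝ) < (Finset.univ.image rep).card := by
        have : (Finset.univ.image rep).Nonempty := by
          refine ⟨rep (cd 0), Finset.mem_image_of_mem _ (Finset.mem_univ _)⟩
        exact_mod_cast this.card_pos
      calc b * Real.log ((Finset.univ.image rep).card) ≤ b * Real.log (Fintype.card C) := by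
            apply mul_le_mul_of_nonneg_left _ hb0.le
            apply Real.log_le_log hC
            exact_mod_cast Finset.card_image_le
        _ < Real.log (Fintype.card R) := hlog
        _ ≤ Real.log t₂.card := by
            apply Real.log_le_log hR
            exact_mod_cast hcard

end Crest.Agent.R071
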