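import Crest.Agent.R071.Code
import Crest.Agent.R071.Cyl
import Crest.Agent.R071.Wrap

set_option autoImplicit false
open Pointwise Crest.AnalysisR
open Crest Crest.AnalysisR

namespace Crest.Agent.R071

open Finset

/-- the radii -/
def rad (i : ℕ) : ℕ := 2 ^ i - 1

theorem rad_add (i₀ i : ℕ) (h : i₀ ≤ i) : rad i + rad i₀ + 1 ≤ rad (i + 1) := by
  have h1 : 2 ^ i₀ ≤ 2 ^ i := Nat.pow_le_pow_right (by norm_num) h
  have h2 : 1 ≤ 2 ^ i₀ := Nat.one_le_two_pow
  have h3 : 2 ^ (i + 1) = 2 * 2 ^ i := by ring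
  unfold rad
  omega

theorem rad_mono {i k : ℕ} (h : i ≤ k) : rad i ≤ rad k := by
  have h1 : 2 ^ i ≤ 2 ^ k := Nat.pow_le_pow_right (by norm_num) h
  unfold rad
  omega

/-- insertion of a zero coordinate -/
def ins {m p : ℕ} [NeZero p] (j : Fin (m + 1)) (v : Fin m → Fin p) : Fin (m + 1) → Fin p :=
  j.insertNth (α := fun _ => Fin p) 0 v

theorem ins_same {m p : ℕ} [NeZero p] (j : Fin (m + 1)) (v : Fin m → Fin p) : ins j v j = 0 := by
  simp [ins]

theorem exists_ins {m p : ℕ} [NeZero p] (j : Fin (m + 1)) (ω : Fin (m + 1) → Fin p)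
    (h : ω j = 0) : ∃ v, ins j v = ω := by
  refine ⟨j.removeNth ω, ?_⟩
  unfold ins
  rw [← h]
  exact Fin.insertNth_self_removeNth j ω

section near

variable {m p : ℕ} [NeZero p] {K : Type}

/-- `r = z` on a cylinder of codimension at most `s` with fixed coordinates in `G`. -/
def Near (G : Finset (Fin (m + 1))) (s : ℕ) (r z : (Fin (m + 1) → Fin p) → K) : Prop :=
  ∃ J' ⊆ G, #J' ≤ s ∧ ∀ ω, (∀ j ∈ J', ω j = 0) → r ω = z ω

/-- localized version -/
def NearV (j₀ : Fin (m + 1)) (G : Finset (Fin (m + 1))) (s : ℕ)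
    (ρ : (Fin m → Fin p) → K) (z : (Fin (m + 1) → Fin p) → K) : Prop :=
  ∃ J' ⊆ G, #J' ≤ s ∧ ∀ v, (∀ j ∈ J', ins j₀ v j = 0) → ρ v = z (ins j₀ v)

theorem near_nearV (j₀ : Fin (m + 1)) (G : Finset (Fin (m + 1))) (s : ℕ)
    (r z : (Fin (m + 1) → Fin p) → K) (h : Near G s r z) :
    NearV j₀ G s (fun v => r (ins j₀ v)) z := by
  obtain ⟨J', h1, h2, h3⟩ := h
  exact ⟨J', h1, h2, fun v hv => h3 _ hv⟩

/-- localized version, Q -/
def NearQ (j₀ : Fin (m + 1)) (G : Finset (Fin (m + 1))) (s : ℕ)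
    (r : (Fin (m + 1) → Fin p) → K) (ρ : (Fin m → Fin p) → K) : Prop :=
  ∃ J' ⊆ G, #J' ≤ s ∧ ∀ v, (∀ j ∈ J', ins j₀ v j = 0) → r (ins j₀ v) = ρ v

theorem nearQ_of (j₀ : Fin (m + 1)) (G : Finset (Fin (m + 1))) (s s' s'' : ℕ)
    (r z : (Fin (m + 1) → Fin p) → K) (ρ : (Fin m → Fin p) → K)
    (hs : s + s' ≤ s'')
    (h : NearV j₀ G s (fun v => r (ins j₀ v)) z) (h' : NearV j₀ G s' ρ z) :
    NearQ j₀ G s'' r ρ := by
  classical
  obtain ⟨J1, a1, a2, a3⟩ := h
  obtain ⟨J2, b1, b2, b3⟩ := h'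
  refine ⟨J1 ∪ J2, Finset.union_subset a1 b1, ?_, ?_⟩
  · have := Finset.card_union_le J1 J2
    omega
  · intro v hv
    have e1 := a3 v (fun j hj => hv j (Finset.mem_union_left _ hj))
    have e2 := b3 v (fun j hj => hv j (Finset.mem_union_right _ hj))
    simp only at e1
    rw [e1, e2]

theorem near_of (j₀ : Fin (m + 1)) (G : Finset (Fin (m + 1))) (s s' s'' : ℕ)
    (r z : (Fin (m + 1) → Fin p) → K) (ρ : (Fin m → Fin p) → K) (hj : j₀ ∈ G)
    (hs : s + s' + 1 ≤ s'')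
    (h : NearQ j₀ G s r ρ) (h' : NearV j₀ G s' ρ z) :
    Near G s'' r z := by
  classical
  obtain ⟨J1, a1, a2, a3⟩ := h
  obtain ⟨J2, b1, b2, b3⟩ := h'
  refine ⟨insert j₀ (J1 ∪ J2), Finset.insert_subset hj (Finset.union_subset a1 b1), ?_, ?_⟩
  · have := Finset.card_union_le J1 J2
    have := Finset.card_insert_le j₀ (J1 ∪ J2)
    omega
  · intro ω hω
    obtain ⟨v, rfl⟩ := exists_ins j₀ ω (hω j₀ (Finset.mem_insert_self _ _))
    have e1 := a3 v (fun j hj => hω j (Finset.mem_insert_of_mem (Finset.mem_union_left _ hj)))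
    have e2 := b3 v (fun j hj => hω j (Finset.mem_insert_of_mem (Finset.mem_union_right _ hj)))
    rw [e1, e2]

end near

open Classical in
/-- The construction, with all parameters given. -/
theorem construction (a b : ℝ) (ha : 1 ≤ a) (hb : 1 ≤ b) (J p m ν : ℕ) [NeZero p]
    (hJ : 0 < J) (hJa : 42 * a ≤ J)
    (hν : (1 - 1 / (p:ℝ) ^ (rad (J - 1))) ^ ν < 1 / 2)
    (hL : J * (rad (J - 1) * ν) ≤ m + 1)
    (K : Type) [Fintype K] [Nonempty K] (R : Type) [Fintype R] [Nonempty R]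
    (ev : R → ((Fin (m + 1) → Fin p) → K))
    (hev : ∀ r r', r ≠ r' → 2 * #{ω | ev r ω = ev r' ω} ≤ p ^ (m + 1))
    (D : ℕ) (hD0 : 0 < D)
    (hD : 2 ^ (m + 1) * J * (J * J) * J ≤ D)
    (hlog : b * Real.log ((m + 1) * (Fintype.card K : ℝ) ^ (p ^ m * (J * (J * J))) *
      (2 * D + 1) ^ (2 ^ (m + 1) * J * (J * J))) < Real.log (Fintype.card R)) :
    ∃ n : ℕ, 0 < n ∧ ∃ K : Set (EuclideanSpace ℝ (Fin n)),
      Convex ℝ K ∧ IsCompact K ∧ (interior K).Nonempty ∧ (∀ x ∈ K, -x ∈ K) ∧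
      ∃ t₁ : Finset (EuclideanSpace ℝ (Fin n)),
        polarSet {x : EuclideanSpace ℝ (Fin n) | ∀ i, |x i| ≤ 1} ⊆
          ⋃ y ∈ t₁, (y +ᵥ a⁻¹ • polarSet K) ∧
        ∀ t₂ : Finset (EuclideanSpace ℝ (Fin n)),
          K ⊆ ⋃ x ∈ t₂, (x +ᵥ {z : EuclideanSpace ℝ (Fin n) | ∀ i, |z i| ≤ 1}) →
          b * Real.log t₁.card < Real.log t₂.card := by
  have ha0 : 0 < a := by linarith
  have hb0 : 0 < b := by linarith
  have hJ' : (0:ℝ) < J := by exact_mod_cast hJ
  let Γ := {G : Finset (Fin (m + 1)) // J * #Gᶜ ≤ m + 1}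
  let X := Γ × R
  let near : ℕ → R → X → Prop := fun i r x => Near x.1.1 (rad i) (ev r) (ev x.2)
  let F : R → X → ℝ := fun r x => (#{i ∈ range J | near i r x} : ℝ) / J
  have hΓne : Nonempty Γ := ⟨⟨Finset.univ, by simp⟩⟩
  have hΓcard : Fintype.card Γ ≤ 2 ^ (m + 1) := by
    calc Fintype.card Γ ≤ Fintype.card (Finset (Fin (m + 1))) := Fintype.card_subtype_le _
      _ = 2 ^ (m + 1) := by rw [Fintype.card_finset, Fintype.card_fin]
  have hcellcard : Fintype.card (Γ × Fin J × Fin (J * J)) ≤ 2 ^ (m + 1) * J * (J * J) := by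
    rw [Fintype.card_prod, Fintype.card_prod, Fintype.card_fin, Fintype.card_fin, ← mul_assoc]
    apply Nat.mul_le_mul_right
    apply Nat.mul_le_mul_right
    exact hΓcard
  obtain ⟨code, hcode⟩ := exists_code (X := X) (Γ := Γ) (R := R) (P := (Fin m → Fin p) → K)
    (I := Fin (m + 1)) J (J * J) D hJ le_rfl hD0
    ((Nat.mul_le_mul_right _ hcellcard).trans hD)
    (fun x => x.1) (fun j x => j ∉ x.1.1) near
    (fun j i ρ x => NearV j x.1.1 (rad i) ρ (ev x.2))
    (fun j r v => ev r (ins j v))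
    (fun j G i r ρ => NearQ j G.1 (rad i) (ev r) ρ)
    (by
      intro x
      have h := x.1.2
      rw [Fintype.card_fin]
      refine le_trans (le_of_eq ?_) h
      congr 2
      ext j
      simp)
    (by
      intro j i r x h
      exact near_nearV j _ _ _ _ h)
    (by
      intro j i₀ i r ρ x _ hi h1 h2
      have := rad_add i₀ i hi
      exact nearQ_of j _ (rad i) (rad i₀) _ _ _ _ (by omega) h1 h2)
    (by
      intro j i₀ i r ρ x hx hi h1 h2
      have := rad_add i₀ i hi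
      exact near_of j _ (rad i) (rad i₀) _ _ _ _ (not_not.1 hx) (by omega) h1 h2)
  refine wrapper a b ha hb F ?_ code ?_ ?_
  · intro r r' hrr
    obtain ⟨G, hG1, hG2⟩ := exists_good hν hL {ω | ev r' ω = ev r ω} (hev r' r hrr.symm)
    refine ⟨(⟨G, hG1⟩, r), ?_, ?_⟩
    · have : {i ∈ range J | near i r (⟨G, hG1⟩, r)} = range J := by
        rw [Finset.filter_eq_self]
        intro i _
        exact ⟨∅, Finset.empty_subset _, by simp, fun _ _ => rfl⟩
      simp only [F]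
      rw [this, Finset.card_range]
      field_simp
    · have : {i ∈ range J | near i r' (⟨G, hG1⟩, r)} = ∅ := by
        rw [Finset.filter_eq_empty_iff]
        rintro i hi ⟨J', h1, h2, h3⟩
        have hi' := Finset.mem_range.1 hi
        obtain ⟨ω, hω1, hω2⟩ := hG2 J' h1 (h2.trans (rad_mono (by omega)))
        apply hω1
        simp only [Finset.mem_filter, Finset.mem_univ, true_and]
        exact h3 ω hω2
      simp only [F]
      rw [this]
      simp
  · intro y y' hy hy' hc r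
    refine (hcode y y' hy hy' hc r).trans ?_
    rw [div_le_div_iff₀ hJ' (by positivity)]
    linarith
  · refine lt_of_le_of_lt ?_ hlog
    apply mul_le_mul_of_nonneg_left _ hb0.le
    apply Real.log_le_log
    · have : Nonempty (Fin (m + 1) × (Fin J → Fin (J * J) → (Fin m → Fin p) → K) ×
        (Γ × Fin J × Fin (J * J) → Finset.Icc (-(D:ℤ)) D)) := ⟨code 0⟩
      exact_mod_cast Fintype.card_pos
    · have hIcc : Fintype.card (Finset.Icc (-(D:ℤ)) (D:ℤ)) = 2 * D + 1 := by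
        rw [Fintype.card_coe, Int.card_Icc]
        omega
      rw [Fintype.card_prod, Fintype.card_prod, Fintype.card_fin, Fintype.card_fun,
        Fintype.card_fun, Fintype.card_fun, Fintype.card_fun, Fintype.card_fun, Fintype.card_fin,
        Fintype.card_fin, Fintype.card_fin, Fintype.card_fin, hIcc]
      push_cast
      rw [← mul_assoc]
      apply mul_le_mul
      · apply le_of_eq
        congr 1
        rw [← pow_mul, ← pow_mul]
        congr 1
        ring
      · apply pow_le_pow_right₀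
        · have : (0:ℝ) ≤ D := Nat.cast_nonneg D
          linarith
        · exact hcellcard
      · positivity
      · positivity

/-- Reed-Solomon evaluation. -/
theorem exists_code_RS (q d : ℕ) [Fact q.Prime] (Ω : Type) [Fintype Ω] [DecidableEq Ω]
    (hq : Fintype.card Ω ≤ q) :
    ∃ ev : (Fin d → ZMod q) → (Ω → ZMod q), ∀ r r', r ≠ r' →
      #{ω | ev r ω = ev r' ω} < d := by
  classical
  have hcard : Fintype.card Ω ≤ Fintype.card (ZMod q) := by rwa [ZMod.card]
  obtain ⟨ι⟩ := Function.Embedding.nonempty_of_card_le hcard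
  refine ⟨fun r ω => ((Polynomial.degreeLTEquiv (ZMod q) d).symm r : Polynomial (ZMod q)).eval
    (ι ω), ?_⟩
  intro r r' hrr
  by_contra hcon
  push Not at hcon
  apply hrr
  apply (Polynomial.degreeLTEquiv (ZMod q) d).symm.injective
  apply Subtype.ext
  have hdeg : ∀ r : Fin d → ZMod q,
      ((Polynomial.degreeLTEquiv (ZMod q) d).symm r : Polynomial (ZMod q)).degree < d := fun r =>
    Polynomial.mem_degreeLT.1 ((Polynomial.degreeLTEquiv (ZMod q) d).symm r).2
  apply Polynomial.eq_of_degrees_lt_of_eval_index_eq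
    {ω | ((Polynomial.degreeLTEquiv (ZMod q) d).symm r : Polynomial (ZMod q)).eval (ι ω) =
      ((Polynomial.degreeLTEquiv (ZMod q) d).symm r' : Polynomial (ZMod q)).eval (ι ω)}
    (ι.injective.injOn)
  · exact lt_of_lt_of_le (hdeg r) (by exact_mod_cast hcon)
  · exact lt_of_lt_of_le (hdeg r') (by exact_mod_cast hcon)
  · intro ω hω
    simpa using hω

theorem main (a b : ℝ) (ha : 1 ≤ a) (hb : 1 ≤ b) :
    ∃ n : ℕ, 0 < n ∧ ∃ K : Set (EuclideanSpace ℝ (Fin n)),
      Convex ℝ K ∧ IsCompact K ∧ (interior K).Nonempty ∧ (∀ x ∈ K, -x ∈ K) ∧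
      ∃ t₁ : Finset (EuclideanSpace ℝ (Fin n)),
        polarSet {x : EuclideanSpace ℝ (Fin n) | ∀ i, |x i| ≤ 1} ⊆
          ⋃ y ∈ t₁, (y +ᵥ a⁻¹ • polarSet K) ∧
        ∀ t₂ : Finset (EuclideanSpace ℝ (Fin n)),
          K ⊆ ⋃ x ∈ t₂, (x +ᵥ {z : EuclideanSpace ℝ (Fin n) | ∀ i, |z i| ≤ 1}) →
          b * Real.log t₁.card < Real.log t₂.card := by
  have ha0 : 0 < a := by linarith
  have hb0 : 0 < b := by linarith
  -- J
  obtain ⟨J, hJa⟩ := exists_nat_ge (42 * a)
  have hJ' : (0:ℝ) < J := by linarith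
  have hJ : 0 < J := by exact_mod_cast hJ'
  -- p
  obtain ⟨p', hp'⟩ := exists_nat_ge (b * (J * (J * J)) + 1)
  have hp'1 : (1:ℝ) ≤ p' := by
    have : (0:ℝ) ≤ b * (J * (J * J)) := by positivity
    linarith
  have hp'0 : 0 < p' := by
    have : (0:ℝ) < p' := by linarith
    exact_mod_cast this
  set p := 2 * p' with hp
  have : NeZero p := ⟨by omega⟩
  have hpr : (0:ℝ) < p := by
    have : 0 < p := by omega
    exact_mod_cast this
  have hpr1 : (1:ℝ) ≤ p := by
    have : 1 ≤ p := by omega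
    exact_mod_cast this
  -- ν
  obtain ⟨ν, hν⟩ : ∃ ν : ℕ, (1 - 1 / (p:ℝ) ^ (rad (J - 1))) ^ ν < 1 / 2 := by
    apply exists_pow_lt_of_lt_one (by norm_num)
    have : (0:ℝ) < 1 / (p:ℝ) ^ (rad (J - 1)) := by positivity
    linarith
  -- m
  set m := J * (rad (J - 1) * ν) with hm
  -- D
  set D := 2 ^ (m + 1) * J * (J * J) * J with hD
  have hD0 : 0 < D := by positivity
  -- q
  set c : ℝ := (m + 1) * (2 * D + 1) ^ (2 ^ (m + 1) * J * (J * J)) with hc
  have hc0 : 0 < c := by positivity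
  obtain ⟨N, hN⟩ := exists_nat_gt (Real.exp (b * Real.log c))
  obtain ⟨q, hq1, hq2⟩ := Nat.exists_infinite_primes (N + p ^ (m + 1))
  have : Fact q.Prime := ⟨hq2⟩
  have hqpos : (0:ℝ) < q := by exact_mod_cast hq2.pos
  have hqlog : b * Real.log c < Real.log q := by
    rw [Real.lt_log_iff_exp_lt hqpos]
    refine hN.trans_le ?_
    have : N ≤ q := by omega
    exact_mod_cast this
  have hqlog0 : 0 ≤ Real.log q := Real.log_natCast_nonneg q
  -- d
  set d := p' * p ^ m with hd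
  have h2d : 2 * d = p ^ (m + 1) := by
    rw [hd, hp]
    ring
  obtain ⟨ev, hev⟩ := exists_code_RS q d (Fin (m + 1) → Fin p) (by
    rw [Fintype.card_fun, Fintype.card_fin, Fintype.card_fin]
    omega)
  refine construction a b ha hb J p m ν hJ hJa hν (by omega) (ZMod q) (Fin d → ZMod q) ev ?_ D
    hD0 le_rfl ?_
  · intro r r' hrr
    have h := (hev r r' hrr).le
    rw [← h2d]
    apply Nat.mul_le_mul_left
    refine le_trans (le_of_eq ?_) h
    congr
  · rw [Fintype.card_fun, Fintype.card_fin, ZMod.card]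
    push_cast
    have e1 : ((m:ℝ) + 1) * (q:ℝ) ^ (p ^ m * (J * (J * J))) *
      (2 * D + 1) ^ (2 ^ (m + 1) * J * (J * J)) = c * (q:ℝ) ^ (p ^ m * (J * (J * J))) := by
      rw [hc]; ring
    rw [e1, Real.log_mul hc0.ne' (by positivity), Real.log_pow, Real.log_pow]
    push_cast
    have hpm : (1:ℝ) ≤ (p:ℝ) ^ m := one_le_pow₀ hpr1
    have hdr : (d:ℝ) = p' * (p:ℝ) ^ m := by
      rw [hd]; push_cast; ring
    have h3 : b * ((p:ℝ) ^ m * (J * (J * J))) + 1 ≤ d := by
      rw [hdr]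
      calc b * ((p:ℝ) ^ m * (J * (J * J))) + 1 ≤ b * ((p:ℝ) ^ m * (J * (J * J))) + (p:ℝ) ^ m := by
            linarith
        _ = (b * (J * (J * J)) + 1) * (p:ℝ) ^ m := by ring
        _ ≤ p' * (p:ℝ) ^ m := mul_le_mul_of_nonneg_right hp' (by positivity)
    have h4 := mul_le_mul_of_nonneg_right h3 hqlog0
    have h5 : b * (Real.log c + (p:ℝ) ^ m * (J * (J * J)) * Real.log q) =
      b * Real.log c + b * ((p:ℝ) ^ m * (J * (J * J))) * Real.log q := by ring
    rw [h5]
    linarith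

end Crest.Agent.R071
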